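import Crest.Agent.Lib.Gas.Base1
import Crest.Agent.Lib.Gas.BaseDefs
import Crest.Agent.Lib.Gas.Base2
import Crest.Agent.Lib.Gas.Base3
import Crest.Agent.Lib.Gas.Base4
import Crest.Agent.Lib.Gas.Base5
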