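import Crest.Agent.Lib.Gas.Level1
import Crest.Agent.Lib.Gas.Level2
import Crest.Agent.Lib.Gas.Level3
import Crest.Agent.Lib.Gas.Level4
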